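import Vale.Agent.P281.H603.K.KodN1

/-!
# P281, project T-GF (helper592): sections on a fibre with Kodaira dimension at most zero
-/

open scoped Manifold ContDiff Topology
open Set Filter Metric

set_option linter.unusedSectionVars false

noncomputable section

namespace Vale.Agent.P281.H592.TGF

open Vale.Agent.P281 Vale.Agent.P281.H64 Vale.Agent.P281.H64.Gen Vale.Agent.P281.ISO
  Vale.Agent.P281.MF Vale.Agent.P281.H713 Vale.Agent.P281.H308.Bir Vale.Agent.P281.H349.NF

variable {n d : ℕ} {X F : Type} [TopologicalSpace X] [ChartedSpace (Cm n) X]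
  [TopologicalSpace F] [ChartedSpace (Cm d) F] [IsManifold 𝓘(ℂ, Cm n) ω X]
  [IsManifold 𝓘(ℂ, Cm d) ω F]

/-- The identity theorem for germs. -/
theorem germ_zero {b : F → ℂ} {z : F} (hb : HolV (Cm d) b z)
    (h : ∃ᶠ z' in 𝓝 z, ∀ᶠ w in 𝓝 z', b w = 0) : ∀ᶠ w in 𝓝 z, b w = 0 := by
  set φ := chartAt (Cm d) z with hφ
  have hz : z ∈ φ.source := mem_chart_source _ z
  have hs : ∀ y ∈ φ.source, Tendsto φ.symm (𝓝 (φ y)) (𝓝 y) := fun y hy => by
    have := (φ.continuousAt_symm (φ.map_source hy)).tendsto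
    rwa [φ.left_inv hy] at this
  have han : AnalyticAt ℂ (b ∘ φ.symm) (φ z) := (hb.rep hz).analyticAt
  obtain ⟨r, hr, hball⟩ := Metric.eventually_nhds_iff_ball.1 han.eventually_analyticAt
  have hU : ∀ᶠ w in 𝓝 z, w ∈ φ.source ∧ φ w ∈ ball (φ z) r :=
    (show ∀ᶠ w in 𝓝 z, w ∈ φ.source from φ.open_source.mem_nhds hz).and
      ((φ.continuousAt hz).eventually (ball_mem_nhds _ hr))
  obtain ⟨z', h1, h2, h3⟩ := (h.and_eventually hU).exists
  have h4 : (b ∘ φ.symm) =ᶠ[𝓝 (φ z')] 0 := (hs z' h2).eventually h1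
  have h5 : EqOn (b ∘ φ.symm) 0 (ball (φ z) r) :=
    AnalyticOnNhd.eqOn_zero_of_preconnected_of_eventuallyEq_zero
      (fun w hw => hball w hw) (convex_ball _ _).isPreconnected h3 h4
  filter_upwards [hU] with w hw
  have h6 : b (φ.symm (φ w)) = 0 := h5 hw.2
  rwa [φ.left_inv hw.1] at h6

/-- A function with zero differential is locally constant. -/
theorem germ_const {q : F → ℂ} {z : F} (hq : HolV (Cm d) q z)
    (h : ∀ᶠ w in 𝓝 z, dV (Cm d) q w = 0) : ∀ᶠ w in 𝓝 z, q w = q z := by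
  set φ := chartAt (Cm d) z with hφ
  have hz : z ∈ φ.source := mem_chart_source _ z
  have hs : Tendsto φ.symm (𝓝 (φ z)) (𝓝 z) := by
    have := (φ.continuousAt_symm (φ.map_source hz)).tendsto
    rwa [φ.left_inv hz] at this
  have hev : ∀ᶠ v in 𝓝 (φ z), v ∈ φ.target ∧ HolV (Cm d) q (φ.symm v) ∧
      dV (Cm d) q (φ.symm v) = 0 ∧ φ.symm v ∈ φ.source :=
    (show ∀ᶠ v in 𝓝 (φ z), v ∈ φ.target from φ.open_target.mem_nhds (φ.map_source hz)).and
      ((hs.eventually hq.eventually).and ((hs.eventually h).and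
        (hs.eventually (φ.open_source.mem_nhds hz))))
  obtain ⟨r, hr, hball⟩ := Metric.eventually_nhds_iff_ball.1 hev
  have hd : ∀ v ∈ ball (φ z) r, HasFDerivAt (q ∘ φ.symm) (0 : Cm d →L[ℂ] ℂ) v := by
    intro v hv
    obtain ⟨h1, h2, h3, h4⟩ := hball v hv
    have h5 := h2.rep h4
    rw [← hφ, φ.right_inv h1] at h5
    have h6 := dV_eq_chart (E := Cm d) h4 h2
    rw [← hφ, φ.right_inv h1, h3] at h6
    have h7 : fderiv ℂ (q ∘ φ.symm) v = 0 := by
      ext ξ
      obtain ⟨η, hη⟩ := dV_chart_surj (E := Cm d) h4 ξ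
      have h8 := congrArg (fun T : Cm d →L[ℂ] ℂ => T η) h6
      simp only [ContinuousLinearMap.comp_apply, _root_.zero_apply] at h8
      rw [hφ] at h8
      rw [hη] at h8
      rw [_root_.zero_apply]
      exact h8.symm
    rw [← h7]
    exact (h5.differentiableAt (by simp)).hasFDerivAt
  have hc : ∀ v ∈ ball (φ z) r, (q ∘ φ.symm) v = (q ∘ φ.symm) (φ z) := fun v hv =>
    (convex_ball (φ z) r).is_const_of_fderivWithin_eq_zero (𝕜 := ℂ)
      (fun w hw => (hd w hw).differentiableAt.differentiableWithinAt)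
      (fun w hw => by
        rw [fderivWithin_of_isOpen isOpen_ball hw]
        exact (hd w hw).fderiv) hv (mem_ball_self hr)
  filter_upwards [φ.open_source.mem_nhds hz,
    (φ.continuousAt hz).eventually (ball_mem_nhds _ hr)] with w h1 h2
  have h3 := hc _ h2
  simp only [Function.comp_apply, φ.left_inv h1, φ.left_inv hz] at h3
  exact h3

/-- **K0, first half**: if `κ(F, K_F + Δ|F) ≤ 0`, two sections of `m (K_F + Δ|F)` are
proportional. -/
theorem prop_of_kodR [T2Space F] [PreconnectedSpace F] {i : F → X}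
    (hi : ∀ t, HolM (Cm d) (Cm n) i t) {Δ : Set X → ℝ} (hΔ : J.IsSNC (Cm n) Δ)
    (h0 : TZ.S.kodR (Cm n) (Cm d) i Δ ≤ 0) {m : ℕ} (hm : 0 < m) {k : Set X → ℕ}
    (hk : ∀ D, (k D : ℝ) = m * Δ D) {s t : F → ℂ}
    (hs : IsSection (Cm d) (eqI (n := n) i) m k s) (ht : IsSection (Cm d) (eqI (n := n) i) m k t)
    {z₀ : F} (hz₀ : ∀ D, k D ≠ 0 → i z₀ ∉ D) (hsz : s z₀ ≠ 0) :
    ∃ c : ℂ, ∀ z, (∀ D, k D ≠ 0 → i z ∉ D) → t z = c * s z := by
  classical
  have hkΔ : ∀ D, k D ≠ 0 → Δ D ≠ 0 := by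
    intro D h1 h2
    have h3 := hk D
    rw [h2, mul_zero] at h3
    exact h1 (by exact_mod_cast h3)
  have hfin : {D | k D ≠ 0}.Finite := hΔ.1.subset fun D hD => hkΔ D hD
  obtain ⟨hGo, hGd⟩ := H76.dense_restrict_fin hi (T := {D | k D ≠ 0}) hfin
    (fun D hD => (hΔ.2.1 D (hkΔ D hD)).1) (fun D hD => (hΔ.2.1 D (hkΔ D hD)).2.1)
    fun D hD => ⟨z₀, hz₀ D hD⟩
  set G : Set F := {p | ∀ D ∈ {D | k D ≠ 0}, i p ∉ D} with hG
  -- the local expressions off the poles
  have hloc : ∀ (σ : F → ℂ), IsSection (Cm d) (eqI (n := n) i) m k σ → ∀ z ∈ G,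
      ∃ a : F → ℂ, HolV (Cm d) a z ∧
        ∀ᶠ w in 𝓝 z, σ w = a w * jac (Cm d) (chartAt (Cm d) z) w ^ m := by
    intro σ hσ z hz
    obtain ⟨a, ha, hae⟩ := sec_std hi hσ (t := z) (T := ∅) (g := fun _ _ => 1)
      (fun D hD h1 => absurd h1 (hz D hD)) (fun D hD => absurd hD (by simp))
    refine ⟨a, ha, ?_⟩
    filter_upwards [hae] with w hw
    simpa using hw
  -- the ratio has zero differential
  have hdz : ∀ z ∈ G, s z ≠ 0 → dV (Cm d) (fun w => t w / s w) z = 0 := by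
    intro z hz hsz'
    by_contra hne
    obtain ⟨ξ, hξ⟩ : ∃ ξ, dV (Cm d) (fun w => t w / s w) z ξ ≠ 0 := by
      by_contra hcon
      push Not at hcon
      exact hne (ContinuousLinearMap.ext hcon)
    have h1 : ((1 : ℕ) : WithBot ℕ∞) ≤ TZ.S.kodR (Cm n) (Cm d) i Δ := by
      unfold TZ.S.kodR J.kod
      refine le_iSup₂_of_le 1 ⟨m, k, fun b => if b = 1 then t else s, z, hm, hk, fun b => ?_,
        fun D hD => ?_, ?_, ?_⟩ (by exact_mod_cast le_rfl)
      · by_cases hb : b = 1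
        · simp only [hb, if_true]
          exact ht
        · simp only [hb, if_false]
          exact hs
      · exact ⟨fun _ => 1, eqI_one (hΔ.2.1 D (hkΔ D hD)).1 (hz D hD), one_ne_zero⟩
      · simpa using hsz'
      · intro y
        refine ⟨(y 0 / dV (Cm d) (fun w => t w / s w) z ξ) • ξ, ?_⟩
        funext b
        have hb : b = 0 := Subsingleton.elim _ _
        subst hb
        show dV (Cm d) (fun w => (if (((0 : Fin 1) : ℕ) + 1) = 1 then t else s) w /
          (if (0 : ℕ) = 1 then t else s) w) z _ = y 0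
        simp only [Fin.val_zero, zero_add, if_true, zero_ne_one, if_false]
        rw [map_smul, smul_eq_mul, div_mul_cancel₀ _ hξ]
    have h2 := h1.trans h0
    norm_num at h2
  obtain ⟨as, has, hase⟩ := hloc s hs z₀ hz₀
  obtain ⟨at', hat, hate⟩ := hloc t ht z₀ hz₀
  have hj : ∀ᶠ w in 𝓝 z₀, jac (Cm d) (chartAt (Cm d) z₀) w ≠ 0 := by
    filter_upwards [(chartAt (Cm d) z₀).open_source.mem_nhds (mem_chart_source _ z₀)] with w hw
    exact jac_chart_ne_zero hw
  have has0 : as z₀ ≠ 0 := by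
    intro h1
    have h2 := hase.self_of_nhds
    rw [h1, zero_mul] at h2
    exact hsz h2
  have hqe : ∀ᶠ w in 𝓝 z₀, t w / s w = at' w / as w := by
    filter_upwards [hase, hate, hj] with w h1 h2 h3
    rw [h1, h2, mul_div_mul_right _ _ (pow_ne_zero _ h3)]
  have hq : HolV (Cm d) (fun w => t w / s w) z₀ := (HolV.div hat has has0).congr hqe
  have hsne : ∀ᶠ w in 𝓝 z₀, s w ≠ 0 := by
    filter_upwards [hase, hj, has.continuousAt.eventually_ne has0] with w h1 h2 h3
    rw [h1]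
    exact mul_ne_zero h3 (pow_ne_zero _ h2)
  have hconst := germ_const hq (by
    filter_upwards [hsne, hGo.mem_nhds hz₀] with w h1 h2 using hdz w h2 h1)
  set c : ℂ := t z₀ / s z₀ with hc
  refine ⟨c, ?_⟩
  set W : Set F := {z | ∀ᶠ w in 𝓝 z, w ∈ G → t w = c * s w} with hW
  have hWo : IsOpen W := by
    rw [isOpen_iff_mem_nhds]
    exact fun z hz => eventually_eventually_nhds.2 hz
  have hWc : IsClosed W := by
    rw [← closure_subset_iff_isClosed]
    intro z hz
    have hfr : ∃ᶠ z' in 𝓝 z, z' ∈ W := mem_closure_iff_frequently.1 hz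
    have hch : ∀ D, ∃ e : X → ℂ, D ∈ hfin.toFinset → IsLocalEq (Cm n) D e (i z) := by
      intro D
      by_cases hDT : D ∈ hfin.toFinset
      · obtain ⟨g, hg⟩ := (hΔ.2.1 D (hkΔ D (by simpa using hDT))).2.1 (i z)
        exact ⟨g, fun _ => hg⟩
      · exact ⟨0, fun h => absurd h hDT⟩
    choose e he using hch
    have hgT : ∀ D ∈ hfin.toFinset, eqI (n := n) i D z (fun t => e D (i t)) := fun D hD =>
      ⟨e D, he D hD, Eventually.of_forall fun _ => rfl⟩
    obtain ⟨a1, ha1, ha1e⟩ := sec_std hi hs (t := z) (T := hfin.toFinset)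
      (g := fun D t => e D (i t)) (fun D hD _ => by simpa using hD) hgT
    obtain ⟨a2, ha2, ha2e⟩ := sec_std hi ht (t := z) (T := hfin.toFinset)
      (g := fun D t => e D (i t)) (fun D hD _ => by simpa using hD) hgT
    have hPG : ∀ᶠ w in 𝓝 z, (w ∈ G ↔ ∏ D ∈ hfin.toFinset, e D (i w) ^ k D ≠ 0) := by
      have h1 : ∀ᶠ w in 𝓝 z, ∀ D ∈ hfin.toFinset, (i w ∈ D ↔ e D (i w) = 0) := by
        rw [Filter.eventually_all_finset]
        intro D hD
        obtain ⟨V, hV, hzV, -, h2, -⟩ := he D hD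
        filter_upwards [(hi z).continuousAt.eventually (hV.mem_nhds hzV)] with w hw using h2 _ hw
      filter_upwards [h1] with w hw
      rw [Finset.prod_ne_zero_iff]
      constructor
      · intro h2 D hD
        exact pow_ne_zero _ fun h3 => h2 D (by simpa using hD) ((hw D hD).2 h3)
      · intro h2 D hD h3
        have hD' : D ∈ hfin.toFinset := by simpa using hD
        have h4 := h2 D hD'
        rw [(hw D hD').1 h3, zero_pow hD] at h4
        exact h4 rfl
    have hb : HolV (Cm d) (fun w => a2 w - c * a1 w) z :=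
      ContMDiffAt.sub ha2 (HolV.mul (HolV.const _ _) ha1)
    have hjz : ∀ᶠ w in 𝓝 z, jac (Cm d) (chartAt (Cm d) z) w ≠ 0 := by
      filter_upwards [(chartAt (Cm d) z).open_source.mem_nhds (mem_chart_source _ z)] with w hw
      exact jac_chart_ne_zero hw
    have hrel : ∀ᶠ w in 𝓝 z, w ∈ G →
        ((∏ D ∈ hfin.toFinset, e D (i w) ^ k D ≠ 0) ∧
        (t w - c * s w) * ∏ D ∈ hfin.toFinset, e D (i w) ^ k D =
          (a2 w - c * a1 w) * jac (Cm d) (chartAt (Cm d) z) w ^ m) := by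
      filter_upwards [ha1e, ha2e, hPG] with w h1 h2 h3 h4
      have h5 := h3.1 h4
      have e1 := h1 h5
      have e2 := h2 h5
      refine ⟨h5, ?_⟩
      linear_combination e2 - c * e1
    have hzero : ∀ᶠ w in 𝓝 z, a2 w - c * a1 w = 0 := by
      refine germ_zero hb ?_
      refine (hfr.and_eventually (hrel.eventually_nhds.and (hjz.eventually_nhds.and
        hb.eventually))).mono ?_
      rintro z' ⟨h1, h2, h3, h4⟩
      have h5 : ∀ᶠ w in 𝓝 z', w ∈ G → a2 w - c * a1 w = 0 := by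
        filter_upwards [h1, h2, h3] with w g1 g2 g3 g4
        obtain ⟨g5, g6⟩ := g2 g4
        rw [g1 g4, sub_self, zero_mul] at g6
        exact (mul_eq_zero.1 g6.symm).resolve_right (pow_ne_zero _ g3)
      filter_upwards [h5.eventually_nhds, h4.eventually] with w g1 g2
      by_contra hne
      have g3 : ∀ᶠ w' in 𝓝 w, a2 w' - c * a1 w' ≠ 0 := g2.continuousAt.eventually_ne hne
      have g4 : ∃ᶠ w' in 𝓝 w, w' ∈ G := mem_closure_iff_frequently.1 (hGd w)
      obtain ⟨w', g5, g6, g7⟩ := (g4.and_eventually (g1.and g3)).exists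
      exact g7 (g6 g5)
    show ∀ᶠ w in 𝓝 z, w ∈ G → t w = c * s w
    filter_upwards [hzero, hrel] with w h1 h2 h3
    obtain ⟨h4, h5⟩ := h2 h3
    rw [h1, zero_mul] at h5
    exact sub_eq_zero.1 ((mul_eq_zero.1 h5).resolve_right h4)
  have hWn : z₀ ∈ W := by
    show ∀ᶠ w in 𝓝 z₀, w ∈ G → t w = c * s w
    filter_upwards [hconst, hsne] with w h1 h2 _
    have h3 : t w / s w = c := h1
    rw [← h3, div_mul_cancel₀ _ h2]
  have hWu : W = univ := IsClopen.eq_univ ⟨hWc, hWo⟩ ⟨z₀, hWn⟩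
  intro z hz
  have h1 : z ∈ W := by rw [hWu]; trivial
  exact (show ∀ᶠ w in 𝓝 z, w ∈ G → t w = c * s w from h1).self_of_nhds hz

end Vale.Agent.P281.H592.TGF
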