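import Vale.Agent.P281.H603.TGF.Spec
import Vale.Agent.P281.H592.TGF.Prop
import Vale.Agent.P281.H740.TL.FibL
import Vale.Agent.P281.H597.SA.R
import Vale.Agent.P281.H389.TGF.Gen

/-!
# P281, project T-GF (helper592), block F1: the transported forms are bounded along a fibre
-/

open Set Filter Metric Vale.Agent.P281 Vale.Agent.P281.MF Vale.Agent.P281.ISO
  Vale.Agent.P281.H713 Vale.Agent.P281.H349.NF
open Vale.Agent.P281.H713.TZ.S (Cm)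
open Vale.Agent.P281.H64.TU (Tame KTame TameOK RelFormT HasFormsT)
open Vale.Agent.P281.H969.TG (trn)
open Vale.Agent.P281.H389.TG (RR ju ju_mul ju_hol)

open scoped Topology ContDiff Manifold

set_option linter.all false

noncomputable section

namespace Vale.Agent.P281.H592.TGF

/-- `σ` is, near every point, a holomorphic function times the power `m` of the Jacobian of the
chart: a section of `m K_F`. -/
def Sec (d m : ℕ) {F : Type} [TopologicalSpace F] [ChartedSpace (Cm d) F] (σ : F → ℂ) : Prop :=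
  ∀ t, ∃ a : F → ℂ, HolV (Cm d) a t ∧
    ∀ᶠ s in 𝓝 t, σ s = a s * jac (Cm d) (chartAt (Cm d) t) s ^ m

section one
variable {n d : ℕ} {X F F₁ : Type} [TopologicalSpace X] [ChartedSpace (Cm n) X]
  [TopologicalSpace F] [ChartedSpace (Cm d) F] [IsManifold 𝓘(ℂ, Cm n) ω X]
  [IsManifold 𝓘(ℂ, Cm d) ω F] [TopologicalSpace F₁] [ChartedSpace (Cm d) F₁]
  [IsManifold 𝓘(ℂ, Cm d) ω F₁]

theorem exists_sec {i : F → X} (hi : ∀ t, HolM (Cm d) (Cm n) i t) {Δ : Set X → ℝ}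
    (hoff : ∀ t D, Δ D ≠ 0 → i t ∉ D) (h0 : 0 ≤ TZ.S.kodR (Cm n) (Cm d) i Δ) :
    ∃ (m : ℕ) (σ : F → ℂ), 0 < m ∧ (∃ z, σ z ≠ 0) ∧ Sec d m σ := by
  obtain ⟨m, k, s, z, hm, hk, hs, hz0⟩ : ∃ (m : ℕ) (k : Set X → ℕ) (s : ℕ → F → ℂ) (z : F),
      0 < m ∧ (∀ D, (k D : ℝ) = m * Δ D) ∧
      (∀ b, IsSection (Cm d) (eqI (n := n) i) m k (s b)) ∧ s 0 z ≠ 0 := by
    by_contra hcon
    have h1 : TZ.S.kodR (Cm n) (Cm d) i Δ ≤ ⊥ := by
      unfold TZ.S.kodR J.kod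
      refine iSup₂_le ?_
      rintro j ⟨m, k, s, z, hm, hk, hs, hz, hs0, -⟩
      exact absurd ⟨m, k, s, z, hm, hk, hs, hs0⟩ hcon
    have h2 := h0.trans h1
    simp at h2
  refine ⟨m, s 0, hm, ⟨z, hz0⟩, fun t => ?_⟩
  obtain ⟨a, ha, hae⟩ := sec_std hi (hs 0) (t := t) (T := ∅) (g := fun _ _ => 1)
    (fun D hD h1 => absurd h1 (hoff t D fun h2 => hD (by
      have h3 := hk D
      rw [h2, mul_zero] at h3
      exact_mod_cast h3))) (fun D hD => absurd hD (by simp))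
  refine ⟨a, ha, ?_⟩
  filter_upwards [hae] with w hw
  simpa using hw

/-- sections in the sense of `eqI` -/
theorem Sec.isSection {i : F → X} (hi : ∀ t, HolM (Cm d) (Cm n) i t) {m : ℕ} {σ : F → ℂ}
    (hσ : Sec d m σ) {k : Set X → ℕ} (hk : {D | k D ≠ 0}.Finite)
    (hcl : ∀ D, k D ≠ 0 → IsClosed D) (hoff : ∀ t D, k D ≠ 0 → i t ∉ D) :
    IsSection (Cm d) (eqI (n := n) i) m k σ := by
  intro t
  obtain ⟨a, ha, hae⟩ := hσ t
  refine ⟨hk.toFinset, fun _ _ => 1, a, fun D hD => by simpa using hD, fun D hD => ?_, ha, ?_⟩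
  · have hD' : k D ≠ 0 := by simpa using hD
    exact eqI_one (hcl D hD') (hoff t D hD')
  · filter_upwards [hae] with s hs _
    rw [hs]
    simp

theorem jac_ne (t : F) : ∀ᶠ s in 𝓝 t, jac (Cm d) (chartAt (Cm d) t) s ≠ 0 := by
  filter_upwards [(chartAt (Cm d) t).open_source.mem_nhds (mem_chart_source _ t)] with w hw
  exact jac_chart_ne_zero hw

/-- the zeros of a section are nowhere dense -/
theorem Sec.freq [PreconnectedSpace F] {m : ℕ} {σ : F → ℂ} (hσ : Sec d m σ) {z : F}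
    (hz : σ z ≠ 0) (t : F) : ∃ᶠ s in 𝓝 t, σ s ≠ 0 := by
  intro hcon
  have hcon' : ∀ᶠ s in 𝓝 t, σ s = 0 := hcon.mono fun s hs => not_not.1 hs
  set W : Set F := {t | ∀ᶠ s in 𝓝 t, σ s = 0} with hW
  have hWo : IsOpen W := isOpen_iff_mem_nhds.2 fun z hz => eventually_eventually_nhds.2 hz
  have hWc : IsClosed W := by
    rw [← closure_subset_iff_isClosed]
    intro x hx
    obtain ⟨a, ha, hae⟩ := hσ x
    have h1 : ∀ᶠ s in 𝓝 x, (σ s = 0 ↔ a s = 0) := by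
      filter_upwards [hae, jac_ne (d := d) x] with s h2 h3
      rw [h2, mul_eq_zero]
      exact ⟨fun h => h.resolve_right (pow_ne_zero _ h3), Or.inl⟩
    have h2 : ∃ᶠ x' in 𝓝 x, ∀ᶠ w in 𝓝 x', a w = 0 := by
      have h3 := mem_closure_iff_frequently.1 hx
      refine (h3.and_eventually h1.eventually_nhds).mono ?_
      rintro x' ⟨h4, h5⟩
      filter_upwards [h4, h5] with w h6 h7 using h7.1 h6
    have h3 := germ_zero ha h2
    filter_upwards [h3, h1] with w h5 h6 using h6.2 h5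
  have huniv : W = univ := IsClopen.eq_univ ⟨hWc, hWo⟩ ⟨t, hcon'⟩
  have hzW : z ∈ W := by rw [huniv]; exact mem_univ z
  exact hz ((show ∀ᶠ s in 𝓝 z, σ s = 0 from hzW).self_of_nhds)

theorem Sec.mul {m m' : ℕ} {σ τ : F → ℂ} (hσ : Sec d m σ) (hτ : Sec d m' τ) :
    Sec d (m + m') fun t => σ t * τ t := by
  intro t
  obtain ⟨a, ha, hae⟩ := hσ t
  obtain ⟨b, hb, hbe⟩ := hτ t
  refine ⟨fun s => a s * b s, ha.mul hb, ?_⟩
  filter_upwards [hae, hbe] with s h1 h2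
  show σ s * τ s = _
  rw [h1, h2, pow_add]
  ring

theorem Sec.pow {m : ℕ} {σ : F → ℂ} (hσ : Sec d m σ) (q : ℕ) :
    Sec d (m * q) fun t => σ t ^ q := by
  intro t
  obtain ⟨a, ha, hae⟩ := hσ t
  refine ⟨fun s => a s ^ q, ha.pow q, ?_⟩
  filter_upwards [hae] with s h1
  show σ s ^ q = _
  rw [h1, mul_pow, pow_mul]

/-- the pull-back of a section -/
theorem Sec.pull {g : F₁ → F} (hg : ContMDiff 𝓘(ℂ, Cm d) 𝓘(ℂ, Cm d) ω g) {m : ℕ} {σ : F → ℂ}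
    (hσ : Sec d m σ) : Sec d m fun t => σ (g t) * (dM (Cm d) (Cm d) g t).det ^ m := by
  intro t
  obtain ⟨a, ha, hae⟩ := hσ (g t)
  refine ⟨fun s => a (g s) * ju (Cm d) g (g t) t s ^ m, (HolV.comp ha (hg t)).mul
    ((ju_hol (mem_chart_source _ _) (mem_chart_source _ _) (hg t)).pow m), ?_⟩
  have e1 : ∀ᶠ s in 𝓝 t, s ∈ (chartAt (Cm d) t).source :=
    (chartAt (Cm d) t).open_source.mem_nhds (mem_chart_source _ _)
  have e2 : ∀ᶠ s in 𝓝 t, g s ∈ (chartAt (Cm d) (g t)).source :=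
    hg.continuous.continuousAt.eventually ((chartAt (Cm d) (g t)).open_source.mem_nhds
      (mem_chart_source _ _))
  filter_upwards [hg.continuous.continuousAt.eventually hae, e1, e2] with s h1 h2 h3
  have h4 := ju_mul (x₁ := t) (x₀ := g t) h2 h3 (hg s)
  show σ (g s) * (dM (Cm d) (Cm d) g s).det ^ m = _
  rw [h1, mul_assoc, ← mul_pow, ← h4, mul_assoc, ← mul_pow]

/-- an étale map is open -/
theorem freq_etale {g : F₁ → F} (hg : ContMDiff 𝓘(ℂ, Cm d) 𝓘(ℂ, Cm d) ω g) {t : F₁}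
    (hdet : (dM (Cm d) (Cm d) g t).det ≠ 0) {P : F → Prop} (h : ∃ᶠ s in 𝓝 (g t), P s) :
    ∃ᶠ t' in 𝓝 t, P (g t') := by
  intro hcon
  set φ := chartAt (Cm d) t with hφ
  set ψ := chartAt (Cm d) (g t) with hψ
  have ht : t ∈ φ.source := mem_chart_source _ _
  have hgt : g t ∈ ψ.source := mem_chart_source _ _
  have h1 := H740.hasStrictFDerivAt_loc (E := Cm d) (E' := Cm d) (hg t)
  rw [← hφ, ← hψ] at h1
  have hsurj : Function.Surjective (dM (Cm d) (Cm d) g t) := (H308.Bir.bij_of_det_ne hdet).2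
  have h2 := h1.map_nhds_eq_of_surj (LinearMap.range_eq_top.2 hsurj)
  have hs : Tendsto φ.symm (𝓝 (φ t)) (𝓝 t) := by
    have := (φ.continuousAt_symm (φ.map_source ht)).tendsto
    rwa [φ.left_inv ht] at this
  have h3 : ∀ᶠ u in 𝓝 (φ t), ¬ P (ψ.symm (ψ (g (φ.symm u)))) := by
    filter_upwards [hs.eventually hcon, hs.eventually
      (hg.continuous.continuousAt.eventually (ψ.open_source.mem_nhds hgt))] with u h4 h5
    rw [ψ.left_inv h5]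
    exact h4
  have h4 : ∀ᶠ w in map (fun u => ψ (g (φ.symm u))) (𝓝 (φ t)), ¬ P (ψ.symm w) := h3
  rw [h2, φ.left_inv ht] at h4
  refine h ?_
  filter_upwards [(ψ.continuousAt hgt).eventually h4, ψ.open_source.mem_nhds hgt] with s h5 h6
  rwa [ψ.left_inv h6] at h5

end one

section two
variable {n p d : ℕ} {X Y F : Type} [TopologicalSpace X] [ChartedSpace (Cm n) X]
  [IsManifold 𝓘(ℂ, Cm n) ω X] [TopologicalSpace Y] [ChartedSpace (Cm p) Y]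
  [IsManifold 𝓘(ℂ, Cm p) ω Y] [TopologicalSpace F] [ChartedSpace (Cm d) F]
  [IsManifold 𝓘(ℂ, Cm d) ω F]

/-- the restriction of a relative form to a fibre which does not meet the poles -/
theorem tau_loc {T' : Tame (Cm d) X} {f : X → Y} {S : Set Y} {e₀ : Cm n ≃L[ℂ] (Cm p × Cm d)}
    {N : ℕ} {𝒜 : Set (Set X)} {κ : Set X → ℕ} {Θ : X → ℂ} {i : F → X} {y : Y}
    (hf : ∀ x, HolM (Cm n) (Cm p) f x) (hi : ∀ t, HolM (Cm d) (Cm n) i t)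
    (hfi : ∀ t, f (i t) = y) (hy : y ∉ S)
    (hsub : ∀ t, Function.Surjective (dM (Cm n) (Cm p) f (i t)))
    (himm : ∀ t, Function.Injective (dM (Cm d) (Cm n) i t))
    (hR : RelFormT T' f S e₀ N 𝒜 κ Θ) {Δ : Set X → ℝ} (hΔ : J.IsSNC (Cm n) Δ)
    (h𝒜 : ∀ D ∈ 𝒜, Δ D ≠ 0) (hκ : ∀ D, κ D ≠ 0 → Δ D ≠ 0) (hoff : ∀ t D, Δ D ≠ 0 → i t ∉ D)
    (t₀ : F) :
    ∃ b : F → ℂ, HolV (Cm d) b t₀ ∧ ∀ᶠ t in 𝓝 t₀, ∀ Q : Cm n →L[ℂ] Cm d,
      (∀ v, Q (dM (Cm d) (Cm n) i t v) = v) →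
      Θ (i t) = b t * (jac (Cm d) (chartAt (Cm d) t₀) t *
        JP e₀ (dM (Cm n) (Cm p) f (i t)) Q) ^ N := by
  classical
  obtain ⟨η, hη, hηe⟩ := H597.SA.adj_local e₀ hf hi t₀ (fun t => (hfi t).trans (hfi t₀).symm)
    (hsub t₀) (himm t₀)
  obtain ⟨e, he⟩ := H389.TG.exists_eqs hΔ (i t₀)
  have hT : ∀ D, D ∈ hΔ.1.toFinset ↔ Δ D ≠ 0 := fun D => by simp
  obtain ⟨H, hH, hHe⟩ := hR.hol (i t₀) (i t₀) (f (i t₀)) (by rw [hfi]; exact hy)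
    (mem_chart_source _ _) (mem_chart_source _ _) hΔ.1.toFinset e
    (fun D hD => (hT D).2 (hκ D hD)) (fun D hD => he D ((hT D).1 hD))
  set PP : X → ℂ := fun z => ∏ D ∈ hΔ.1.toFinset, e D z ^ κ D with hPPd
  have hPP : HolV (Cm n) PP (i t₀) := by
    refine HolV.prod (g := fun D w => e D w ^ κ D) fun D hD => ?_
    obtain ⟨W, hW, hxW, h1, -, -⟩ := he D ((hT D).1 hD)
    exact HolV.pow (h1 _ hxW) _
  have hP0 : PP (i t₀) ≠ 0 := by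
    refine Finset.prod_ne_zero_iff.2 fun D hD => pow_ne_zero _ fun h0 => ?_
    obtain ⟨W, hW, hxW, -, h1, -⟩ := he D ((hT D).1 hD)
    exact hoff t₀ D ((hT D).1 hD) ((h1 _ hxW).2 h0)
  set c : ℂ := jac (Cm p) (chartAt (Cm p) (f (i t₀))) (f (i t₀)) with hcd
  have hc : c ≠ 0 := jac_chart_ne_zero (mem_chart_source _ _)
  have hq : HolV (Cm d) (fun t => PP (i t)) t₀ := HolV.comp hPP (hi t₀)
  refine ⟨fun t => (H (i t) * η t ^ N) / (c ^ N * PP (i t)),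
    HolV.div (g := fun t => H (i t) * η t ^ N) (h := fun t => c ^ N * PP (i t))
      (HolV.mul (HolV.comp hH (hi t₀)) (hη.pow N)) (HolV.mul (HolV.const _ _) hq)
      (mul_ne_zero (pow_ne_zero _ hc) hP0), ?_⟩
  filter_upwards [hηe, (hi t₀).continuousAt.eventually hHe,
    hq.continuousAt.eventually_ne hP0] with t h1 h2 h3 Q hQ
  have h4 := h2 (fun D hD => hoff t D (h𝒜 D hD)) h3
  rw [h1 Q hQ, hfi t, ← hfi t₀, ← hcd] at h4
  show Θ (i t) = (H (i t) * η t ^ N) / (c ^ N * PP (i t)) * _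
  have h5 : c ^ N ≠ 0 := pow_ne_zero _ hc
  have h6 : PP (i t) ≠ 0 := h3
  rw [div_mul_eq_mul_div, eq_div_iff (mul_ne_zero h5 h6)]
  have h7 : c ^ N * Θ (i t) * PP (i t) = H (i t) * (η t * jac (Cm d) (chartAt (Cm d) t₀) t *
      JP e₀ (dM (Cm n) (Cm p) f (i t)) Q) ^ N := h4
  calc Θ (i t) * (c ^ N * PP (i t)) = c ^ N * Θ (i t) * PP (i t) := by ring
    _ = _ := by rw [h7, mul_assoc, mul_pow]; ring

/-- comparison of the frames along a fibre -/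
theorem frame_bdd {f : X → Y} {i : F → X} {y : Y} (hf : ∀ x, HolM (Cm n) (Cm p) f x)
    (hi : ∀ t, HolM (Cm d) (Cm n) i t) (hfi : ∀ t, f (i t) = y)
    (hsub : ∀ t, Function.Surjective (dM (Cm n) (Cm p) f (i t)))
    (himm : ∀ t, Function.Injective (dM (Cm d) (Cm n) i t)) (e₀ : Cm n ≃L[ℂ] (Cm p × Cm d))
    (x₀ : X) (y₀ : Y) (s₀ : F) (hx : i s₀ ∈ (chartAt (Cm n) x₀).source) :
    ∃ C : ℝ, 0 ≤ C ∧ ∀ᶠ s in 𝓝 s₀, ∀ Q : Cm n →L[ℂ] Cm d,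
      (∀ v, Q (dM (Cm d) (Cm n) i s v) = v) →
      ‖jac (Cm p) (chartAt (Cm p) y₀) (f (i s)) / jac (Cm n) (chartAt (Cm n) x₀) (i s) *
        (JP e₀ (dM (Cm n) (Cm p) f (i s)) Q * jac (Cm d) (chartAt (Cm d) s₀) s)‖ ≤ C := by
  obtain ⟨η, hη, hηe⟩ := H597.SA.adj_local e₀ hf hi s₀ (fun t => (hfi t).trans (hfi s₀).symm)
    (hsub s₀) (himm s₀)
  have hη0 : η s₀ ≠ 0 := by
    intro h0
    obtain ⟨Q, hQ⟩ := exists_left_inv (himm s₀)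
    have h1 := hηe.self_of_nhds Q hQ
    rw [h0, zero_mul, zero_mul] at h1
    exact jac_chart_ne_zero (mem_chart_source _ _) h1
  set r : X → ℂ := fun w => (fderiv ℂ ((chartAt (Cm n) x₀ : X → Cm n) ∘
    (chartAt (Cm n) (i s₀)).symm) (chartAt (Cm n) (i s₀) w)).det with hr
  have hrc : ContinuousAt r (i s₀) := continuousAt_jac_ratio hx
  have e1 : ∀ᶠ w in 𝓝 (i s₀), w ∈ (chartAt (Cm n) (i s₀)).source ∧
      w ∈ (chartAt (Cm n) x₀).source :=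
    ((chartAt (Cm n) (i s₀)).open_source.eventually_mem (mem_chart_source _ _)).and
      ((chartAt (Cm n) x₀).open_source.eventually_mem hx)
  have hr0 : r (i s₀) ≠ 0 := by
    intro h0
    have h1 := jac_chart_comp (E := Cm n) (x₀ := x₀) (x := i s₀) (w := i s₀) hx
      (mem_chart_source _ _)
    have h2 : (fderiv ℂ ((chartAt (Cm n) x₀ : X → Cm n) ∘
      (chartAt (Cm n) (i s₀)).symm) (chartAt (Cm n) (i s₀) (i s₀))).det = 0 := h0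
    rw [h2, zero_mul] at h1
    exact jac_chart_ne_zero hx h1
  set R : F → ℂ := fun s => jac (Cm p) (chartAt (Cm p) y₀) y / (r (i s) * η s) with hRd
  have hric : ContinuousAt (fun s => r (i s)) s₀ :=
    ContinuousAt.comp (g := r) hrc (hi s₀).continuousAt
  have hR : ContinuousAt R s₀ :=
    continuousAt_const.div (hric.mul hη.continuousAt) (mul_ne_zero hr0 hη0)
  refine ⟨‖R s₀‖ + 1, by positivity, ?_⟩
  have h1 : ∀ᶠ s in 𝓝 s₀, ‖R s‖ < ‖R s₀‖ + 1 :=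
    hR.norm.eventually_lt_const (by linarith)
  filter_upwards [h1, hηe, (hi s₀).continuousAt.eventually e1, hη.continuousAt.eventually_ne hη0,
    hric.eventually_ne hr0] with s h2 h3 h4 h5 h6 Q hQ
  refine le_of_eq_of_le (congrArg norm ?_) h2.le
  have h7 := h3 Q hQ
  have h8 := jac_chart_comp (E := Cm n) (x₀ := x₀) (x := i s₀) (w := i s) h4.2 h4.1
  have h9 : jac (Cm n) (chartAt (Cm n) x₀) (i s) = r (i s) *
      jac (Cm n) (chartAt (Cm n) (i s₀)) (i s) := h8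
  have h10 : jac (Cm n) (chartAt (Cm n) x₀) (i s) ≠ 0 := jac_chart_ne_zero h4.2
  have h11 : jac (Cm n) (chartAt (Cm n) (i s₀)) (i s) ≠ 0 := jac_chart_ne_zero h4.1
  show _ = jac (Cm p) (chartAt (Cm p) y₀) y / (r (i s) * η s)
  rw [hfi, h9]
  set jj := jac (Cm n) (chartAt (Cm n) (i s₀)) (i s)
  set JJ := JP e₀ (dM (Cm n) (Cm p) f (i s)) Q
  set jF := jac (Cm d) (chartAt (Cm d) s₀) s
  have h12 : JJ * jF = jj / η s := by
    rw [h7]; field_simp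
  rw [h12]
  field_simp

end two

section lin

variable {n p d : ℕ}

/-- the value of the transported form, in terms of the sections on the fibres -/
theorem alg_id {α J J₁ dv du dg τ σ b jF c Θ : ℂ} {N M m : ℕ} (hΘ : Θ = τ * J₁ ^ N)
    (hJ : J * du = dv * dg * J₁) (hdu : du ≠ 0) (hdg : dg ≠ 0)
    (hc : τ ^ (M * m) = c * (σ * dg ^ m) ^ (M * N)) (hσ : σ = b * jF ^ m) :
    (α ^ N * (Θ * (dv / du) ^ N)) ^ (M * m) =
      c * b ^ (M * N) * (α * (J * jF)) ^ (N * (M * m)) := by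
  have h1 : α ^ N * (Θ * (dv / du) ^ N) = (α * (J / dg)) ^ N * τ := by
    have h2 : J / dg = dv / du * J₁ := by
      rw [div_eq_iff hdg, div_mul_eq_mul_div, div_mul_eq_mul_div, eq_div_iff hdu, hJ]
      ring
    rw [h2, hΘ, mul_pow, mul_pow]
    ring
  rw [h1, mul_pow, hc, ← pow_mul, hσ]
  have h3 : (b * jF ^ m * dg ^ m) ^ (M * N) = b ^ (M * N) * (jF * dg) ^ (N * (M * m)) := by
    rw [mul_assoc, ← mul_pow, mul_pow, ← pow_mul]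
    congr 2
    ring
  rw [h3]
  have h4 : (α * (J / dg)) ^ (N * (M * m)) * (jF * dg) ^ (N * (M * m)) =
      (α * (J * jF)) ^ (N * (M * m)) := by
    rw [← mul_pow]
    congr 1
    field_simp
  rw [← h4]
  ring

theorem le_of_pow {a C : ℝ} (ha : 0 ≤ a) {q : ℕ} (hq : 0 < q) (h : a ^ q ≤ C) : a ≤ max 1 C := by
  rcases le_or_gt a 1 with h1 | h1
  · exact h1.trans (le_max_left _ _)
  · exact ((le_self_pow₀ h1.le hq.ne').trans h).trans (le_max_right _ _)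

end lin

section three
variable {n p d : ℕ} {X₁ Y₁ X Y F₁ F : Type} [TopologicalSpace X₁] [ChartedSpace (Cm n) X₁]
  [IsManifold 𝓘(ℂ, Cm n) ω X₁] [TopologicalSpace Y₁] [ChartedSpace (Cm p) Y₁]
  [IsManifold 𝓘(ℂ, Cm p) ω Y₁] [TopologicalSpace X] [ChartedSpace (Cm n) X]
  [IsManifold 𝓘(ℂ, Cm n) ω X] [TopologicalSpace Y] [ChartedSpace (Cm p) Y]
  [IsManifold 𝓘(ℂ, Cm p) ω Y] [TopologicalSpace F] [ChartedSpace (Cm d) F]
  [IsManifold 𝓘(ℂ, Cm d) ω F] [TopologicalSpace F₁] [ChartedSpace (Cm d) F₁]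
  [IsManifold 𝓘(ℂ, Cm d) ω F₁]

theorem exists_lift (hn : n = p + d) {f : X → Y} {i : F → X} {y : Y} {u : X₁ → X} {i₁ : F₁ → X₁}
    (hf : ContMDiff 𝓘(ℂ, Cm n) 𝓘(ℂ, Cm p) ω f) (hi : ContMDiff 𝓘(ℂ, Cm d) 𝓘(ℂ, Cm n) ω i)
    (hsub : ∀ t, Function.Surjective (dM (Cm n) (Cm p) f (i t)))
    (himm : ∀ t, Function.Injective (dM (Cm d) (Cm n) i t)) (hfi : ∀ t, f (i t) = y)
    (hinj : Function.Injective i) (hu : ContMDiff 𝓘(ℂ, Cm n) 𝓘(ℂ, Cm n) ω u)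
    (hi₁ : ContMDiff 𝓘(ℂ, Cm d) 𝓘(ℂ, Cm n) ω i₁) (hs : ∀ t, ∃ s, i s = u (i₁ t)) :
    ∃ g : F₁ → F, ContMDiff 𝓘(ℂ, Cm d) 𝓘(ℂ, Cm d) ω g ∧ ∀ t, i (g t) = u (i₁ t) := by
  choose g hg using hs
  refine ⟨g, fun t => ?_, hg⟩
  have hr : Module.finrank ℂ (Cm n) = Module.finrank ℂ (Cm p) + Module.finrank ℂ (Cm d) := by
    simp [hn]
  obtain ⟨ρ, hρ, hρt, hρf⟩ := H740.exists_retr hr hf hi (hsub (g t)) (himm (g t)) hfi
  rw [hg] at hρ hρf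
  have hc : ContMDiffAt 𝓘(ℂ, Cm d) 𝓘(ℂ, Cm n) ω (fun t => u (i₁ t)) t := (hu.comp hi₁) t
  refine (ContMDiffAt.comp t (g := ρ) (f := fun t => u (i₁ t)) hρ hc).congr_of_eventuallyEq ?_
  filter_upwards [hc.continuousAt.eventually hρf] with t' h1
  have h2 : f (u (i₁ t')) = y := by rw [← hg, hfi]
  exact hinj ((hg t').trans (h1 h2).symm)

theorem dM_cc {E₁ E₂ E₃ : Type} [NormedAddCommGroup E₁] [NormedSpace ℂ E₁]
    [NormedAddCommGroup E₂] [NormedSpace ℂ E₂] [NormedAddCommGroup E₃] [NormedSpace ℂ E₃]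
    {A B C : Type} [TopologicalSpace A] [ChartedSpace E₁ A] [TopologicalSpace B]
    [ChartedSpace E₂ B] [TopologicalSpace C] [ChartedSpace E₃ C] {g : B → C} {f : A → B} {x : A}
    (hg : HolM E₂ E₃ g (f x)) (hf : HolM E₁ E₂ f x) :
    dM E₁ E₃ (fun z => g (f z)) x = (dM E₂ E₃ g (f x)).comp (dM E₁ E₂ f x) :=
  mfderiv_comp x (ContMDiffAt.mdifferentiableAt hg (by simp))
    (ContMDiffAt.mdifferentiableAt hf (by simp))

theorem det_of_inj {L : Cm d →L[ℂ] Cm d} (h : Function.Injective L) : L.det ≠ 0 := by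
  have h3 := (LinearMap.isUnit_iff_ker_eq_bot (L : Cm d →ₗ[ℂ] Cm d)).2 (LinearMap.ker_eq_bot.2 h)
  exact (LinearMap.isUnit_det _ h3).ne_zero

theorem det_ev {g : F₁ → F} (hg : ContMDiff 𝓘(ℂ, Cm d) 𝓘(ℂ, Cm d) ω g) {t : F₁}
    (h : (dM (Cm d) (Cm d) g t).det ≠ 0) : ∀ᶠ s in 𝓝 t, (dM (Cm d) (Cm d) g s).det ≠ 0 := by
  have h1 : HolV (Cm d) (ju (Cm d) g (g t) t) t :=
    ju_hol (mem_chart_source _ _) (mem_chart_source _ _) (hg t)
  have h2 := ju_mul (x₁ := t) (x₀ := g t) (w := t) (mem_chart_source _ _)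
    (mem_chart_source _ _) (hg t)
  have h3 : ju (Cm d) g (g t) t t ≠ 0 := by
    intro h0
    rw [h0, zero_mul] at h2
    exact mul_ne_zero (jac_chart_ne_zero (mem_chart_source _ _)) h h2.symm
  filter_upwards [h1.continuousAt.eventually_ne h3,
    (chartAt (Cm d) t).open_source.eventually_mem (mem_chart_source _ _),
    hg.continuous.continuousAt.eventually ((chartAt (Cm d) (g t)).open_source.mem_nhds
      (mem_chart_source _ _))] with s e1 e2 e3 h0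
  have h4 := ju_mul (x₁ := t) (x₀ := g t) e2 e3 (hg s)
  rw [h0, mul_zero] at h4
  exact mul_ne_zero e1 (jac_chart_ne_zero e2) h4

/-- **F1 over one point `y₁`**. -/
theorem bdd_one [CompactSpace F₁] [PreconnectedSpace F₁] [T2Space F₁] [PreconnectedSpace F]
    (hn : n = p + d) {u : X₁ → X} {v : Y₁ → Y} {f₁ : X₁ → Y₁} {f : X → Y} {i : F → X}
    {i₁ : F₁ → X₁} {y : Y} {y₁ : Y₁} {S₁ : Set Y₁} {T' : Tame (Cm d) X₁}
    {e₀ : Cm n ≃L[ℂ] (Cm p × Cm d)} {N : ℕ} {𝒜₁ : Set (Set X₁)} {κ₁ : Set X₁ → ℕ} {Θ₁ : X₁ → ℂ}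
    {Δ₁ : Set X₁ → ℝ} {K : Set X}
    (hu : ContMDiff 𝓘(ℂ, Cm n) 𝓘(ℂ, Cm n) ω u) (hv : ContMDiff 𝓘(ℂ, Cm p) 𝓘(ℂ, Cm p) ω v)
    (hf₁ : ContMDiff 𝓘(ℂ, Cm n) 𝓘(ℂ, Cm p) ω f₁) (hf : ContMDiff 𝓘(ℂ, Cm n) 𝓘(ℂ, Cm p) ω f)
    (hi : ContMDiff 𝓘(ℂ, Cm d) 𝓘(ℂ, Cm n) ω i) (hi₁ : ContMDiff 𝓘(ℂ, Cm d) 𝓘(ℂ, Cm n) ω i₁)
    (hcomm : ∀ w, f (u w) = v (f₁ w)) (hfi : ∀ t, f (i t) = y) (hfi₁ : ∀ t, f₁ (i₁ t) = y₁)
    (hvy : v y₁ = y) (hy₁ : y₁ ∉ S₁)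
    (hsub : ∀ t, Function.Surjective (dM (Cm n) (Cm p) f (i t)))
    (himm : ∀ t, Function.Injective (dM (Cm d) (Cm n) i t)) (hinj : Function.Injective i)
    (hsurj : ∀ x, f x = y → ∃ t, i t = x)
    (hsub₁ : ∀ t, Function.Surjective (dM (Cm n) (Cm p) f₁ (i₁ t)))
    (himm₁ : ∀ t, Function.Injective (dM (Cm d) (Cm n) i₁ t))
    (hsurj₁ : ∀ x, f₁ x = y₁ → ∃ t, i₁ t = x)
    (hK : ∀ w, f₁ w = y₁ → u w ∉ K → (dM (Cm n) (Cm n) u w).det ≠ 0)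
    (hR : RelFormT T' f₁ S₁ e₀ N 𝒜₁ κ₁ Θ₁) (hΔ₁ : J.IsSNC (Cm n) Δ₁)
    (h𝒜 : ∀ D ∈ 𝒜₁, Δ₁ D ≠ 0) (hκ : ∀ D, κ₁ D ≠ 0 → Δ₁ D ≠ 0)
    (hoff₁ : ∀ t D, Δ₁ D ≠ 0 → i₁ t ∉ D) {m : ℕ} (hm : 0 < m) {σ : F → ℂ} (hσ : Sec d m σ)
    {z₀ : F} (hz₀ : σ z₀ ≠ 0) (hκ0 : TZ.S.kodR (Cm n) (Cm d) i₁ Δ₁ ≤ 0)
    {x x₀ : X} {y₀ : Y} (hxy : f x = y) (hx : x ∈ (chartAt (Cm n) x₀).source) :
    ∃ C : ℝ, ∀ᶠ z in 𝓝 x, f z = y → z ∉ K → ∀ w, u w = z → f₁ w = y₁ →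
      ‖RR n p u v f₁ f N Θ₁ x₀ y₀ w‖ ≤ C := by
  classical
  have hiH : ∀ t, HolM (Cm d) (Cm n) i t := fun t => hi t
  have hi₁H : ∀ t, HolM (Cm d) (Cm n) i₁ t := fun t => hi₁ t
  have hfH : ∀ t, HolM (Cm n) (Cm p) f t := fun t => hf t
  have hf₁H : ∀ t, HolM (Cm n) (Cm p) f₁ t := fun t => hf₁ t
  obtain ⟨s₀, rfl⟩ := hsurj x hxy
  have hr : Module.finrank ℂ (Cm n) = Module.finrank ℂ (Cm p) + Module.finrank ℂ (Cm d) := by
    simp [hn]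
  rcases Nat.eq_zero_or_pos N with hN | hN
  · subst hN
    have hcont : Continuous fun t => Θ₁ (i₁ t) := by
      rw [continuous_iff_continuousAt]
      intro t
      obtain ⟨b, hb, hbe⟩ := tau_loc hf₁H hi₁H hfi₁ hy₁ hsub₁ himm₁ hR hΔ₁ h𝒜 hκ hoff₁ t
      refine hb.continuousAt.congr ?_
      filter_upwards [hbe] with s hs
      obtain ⟨Q, hQ⟩ := exists_left_inv (himm₁ s)
      rw [hs Q hQ, pow_zero, mul_one]
    obtain ⟨C, hC⟩ := isCompact_univ.exists_bound_of_continuousOn hcont.continuousOn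
    refine ⟨C, Eventually.of_forall fun z _ _ w _ hw => ?_⟩
    obtain ⟨t, rfl⟩ := hsurj₁ w hw
    have h1 : RR n p u v f₁ f 0 Θ₁ x₀ y₀ (i₁ t) = Θ₁ (i₁ t) := by
      unfold RR trn
      rw [pow_zero, pow_zero, one_mul, mul_one]
    rw [h1]
    exact hC t (mem_univ t)
  obtain ⟨g, hg, hgi⟩ := exists_lift hn hf hi hsub himm hfi hinj hu hi₁
    (fun t => hsurj _ (by rw [hcomm, hfi₁, hvy]))
  have hch2 : ∀ t, (dM (Cm n) (Cm n) u (i₁ t)).comp (dM (Cm d) (Cm n) i₁ t) =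
      (dM (Cm d) (Cm n) i (g t)).comp (dM (Cm d) (Cm d) g t) := by
    intro t
    rw [← dM_cc (hu _) (hi₁ t), ← dM_cc (hi _) (hg t)]
    congr 1
    funext s
    exact (hgi s).symm
  have hdg : ∀ t, (dM (Cm n) (Cm n) u (i₁ t)).det ≠ 0 → (dM (Cm d) (Cm d) g t).det ≠ 0 := by
    intro t h0
    refine det_of_inj fun a b hab => himm₁ t ((H308.Bir.bij_of_det_ne h0).1 ?_)
    have h2 := congrArg (fun L : Cm d →L[ℂ] Cm n => L a) (hch2 t)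
    have h3 := congrArg (fun L : Cm d →L[ℂ] Cm n => L b) (hch2 t)
    simp only [ContinuousLinearMap.comp_apply] at h2 h3
    rw [h2, h3, hab]
  by_cases hex : ∃ t, (dM (Cm n) (Cm n) u (i₁ t)).det ≠ 0
  swap
  · refine ⟨0, Eventually.of_forall fun z hz hzK w hw hw1 => ?_⟩
    obtain ⟨t, rfl⟩ := hsurj₁ w hw1
    exact absurd ⟨t, hK _ hw1 (by rw [hw]; exact hzK)⟩ hex
  obtain ⟨t', ht'⟩ := hex
  obtain ⟨z₁, h1, h2⟩ := ((freq_etale hg (hdg t' ht') (hσ.freq hz₀ (g t'))).and_eventually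
    (det_ev hg (hdg t' ht'))).exists
  obtain ⟨M, hM, K₁, hK₁, -⟩ := exists_denominator (JB.snc hΔ₁)
  choose Q hQ using fun t => exists_left_inv (himm₁ t)
  have hAD : ∀ t v, dM (Cm n) (Cm p) f₁ (i₁ t) (dM (Cm d) (Cm n) i₁ t v) = 0 := by
    intro t v
    have e1 := dM_cc (hf₁ (i₁ t)) (hi₁ t)
    have e2 : (fun s => f₁ (i₁ s)) = fun _ => y₁ := funext hfi₁
    have e3 : dM (Cm d) (Cm p) (fun s => f₁ (i₁ s)) t = 0 := by
      rw [e2]; unfold dM; rw [mfderiv_const]; rfl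
    exact congrArg (fun T : Cm d →L[ℂ] Cm p => T v) (e1.symm.trans e3)
  have hJ0 : ∀ t, JP e₀ (dM (Cm n) (Cm p) f₁ (i₁ t)) (Q t) ≠ 0 := fun t =>
    JP_ne_zero e₀ (hAD t) (hQ t) (hsub₁ t)
  set τ : F₁ → ℂ := fun t => Θ₁ (i₁ t) / JP e₀ (dM (Cm n) (Cm p) f₁ (i₁ t)) (Q t) ^ N with hτd
  have hτ : Sec d N τ := by
    intro t
    obtain ⟨b, hb, hbe⟩ := tau_loc hf₁H hi₁H hfi₁ hy₁ hsub₁ himm₁ hR hΔ₁ h𝒜 hκ hoff₁ t
    refine ⟨b, hb, ?_⟩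
    filter_upwards [hbe] with s hs
    show Θ₁ (i₁ s) / _ ^ N = _
    rw [hs (Q s) (hQ s), mul_pow, ← mul_assoc, mul_div_cancel_right₀ _ (pow_ne_zero _ (hJ0 s))]
  set k : Set X₁ → ℕ := fun D => K₁ D * (N * m) with hkd
  have hk : ∀ D, (k D : ℝ) = ((N * (M * m) : ℕ) : ℝ) * Δ₁ D := by
    intro D
    rw [hkd]
    push_cast
    rw [hK₁]
    ring
  have hkΔ : ∀ D, k D ≠ 0 → Δ₁ D ≠ 0 := by
    intro D h3 h4
    have h5 := hk D
    rw [h4, mul_zero] at h5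
    exact h3 (by exact_mod_cast h5)
  have hkf : {D | k D ≠ 0}.Finite := hΔ₁.1.subset fun D hD => hkΔ D hD
  have hcl : ∀ D, k D ≠ 0 → IsClosed D := fun D hD => (hΔ₁.2.1 D (hkΔ D hD)).1
  have hofk : ∀ t D, k D ≠ 0 → i₁ t ∉ D := fun t D hD => hoff₁ t D (hkΔ D hD)
  have hsW : Sec d (N * (M * m)) fun t =>
      (σ (g t) * (dM (Cm d) (Cm d) g t).det ^ m) ^ (M * N) := by
    have h3 := (hσ.pull hg).pow (M * N)
    rwa [show m * (M * N) = N * (M * m) by ring] at h3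
  have htW : Sec d (N * (M * m)) fun t => τ t ^ (M * m) := hτ.pow (M * m)
  obtain ⟨c, hc⟩ := prop_of_kodR hi₁H hΔ₁ hκ0 (m := N * (M * m)) (by positivity) hk
    (hsW.isSection hi₁H hkf hcl hofk) (htW.isSection hi₁H hkf hcl hofk) (z₀ := z₁)
    (fun D hD => hofk z₁ D hD) (pow_ne_zero _ (mul_ne_zero h1 (pow_ne_zero _ h2)))
  have hc' : ∀ t, τ t ^ (M * m) = c * (σ (g t) * (dM (Cm d) (Cm d) g t).det ^ m) ^ (M * N) :=
    fun t => hc t fun D hD => hofk t D hD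
  obtain ⟨C₂, hC₂0, hC₂⟩ := frame_bdd hfH hiH hfi hsub himm e₀ x₀ y₀ s₀ hx
  obtain ⟨b, hb, hbe⟩ := hσ s₀
  have hbb : ∀ᶠ s in 𝓝 s₀, ‖b s‖ < ‖b s₀‖ + 1 :=
    hb.continuousAt.norm.eventually_lt_const (by linarith)
  obtain ⟨ρ, hρ, hρt, hρf⟩ := H740.exists_retr hr hf hi (hsub s₀) (himm s₀) hfi
  have hρc : Tendsto ρ (𝓝 (i s₀)) (𝓝 s₀) := by
    have h3 := hρ.continuousAt.tendsto
    rwa [hρt] at h3
  refine ⟨max 1 (‖c‖ * (‖b s₀‖ + 1) ^ (M * N) * C₂ ^ (N * (M * m))), ?_⟩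
  filter_upwards [hρf, hρc.eventually hC₂, hρc.eventually hbe, hρc.eventually hbb]
    with z a1 a2 a3 a4 hz hzK w hw hw1
  obtain ⟨t, rfl⟩ := hsurj₁ w hw1
  have b1 : g t = ρ z := hinj (by rw [hgi, hw, a1 hz])
  rw [← b1] at a2 a3 a4
  obtain ⟨Q', hQ'⟩ := exists_left_inv (himm (g t))
  have b2 : (dM (Cm n) (Cm n) u (i₁ t)).det ≠ 0 := hK _ hw1 (by rw [hw]; exact hzK)
  have b3 := hdg t b2
  have hid : (Q'.comp (dM (Cm d) (Cm n) i (g t))).det = 1 := by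
    have h3 : Q'.comp (dM (Cm d) (Cm n) i (g t)) = ContinuousLinearMap.id ℂ (Cm d) :=
      ContinuousLinearMap.ext hQ'
    rw [h3]
    simp [ContinuousLinearMap.det]
  have hch1 : (dM (Cm n) (Cm p) f (u (i₁ t))).comp (dM (Cm n) (Cm n) u (i₁ t)) =
      (dM (Cm p) (Cm p) v (f₁ (i₁ t))).comp (dM (Cm n) (Cm p) f₁ (i₁ t)) := by
    rw [← dM_cc (hf _) (hu _), ← dM_cc (hv _) (hf₁ _)]
    congr 1
    funext s
    exact hcomm s
  have b4 := H597.SA.key_alg e₀ (A := dM (Cm n) (Cm p) f₁ (i₁ t))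
    (P := dM (Cm n) (Cm p) f (u (i₁ t))) (Q := Q t) (P' := Q') (D := dM (Cm d) (Cm n) i₁ t)
    (D' := dM (Cm d) (Cm n) i (g t)) (dψ := dM (Cm n) (Cm n) u (i₁ t))
    (dφ := dM (Cm d) (Cm d) g t) (κ := dM (Cm p) (Cm p) v (f₁ (i₁ t))) (hAD t) (hQ t) hch1
    (hch2 t) (by rw [hid]; exact one_ne_zero) b3
  rw [hid, one_mul] at b4
  have hΘ : Θ₁ (i₁ t) = τ t * JP e₀ (dM (Cm n) (Cm p) f₁ (i₁ t)) (Q t) ^ N := by
    show _ = Θ₁ (i₁ t) / _ ^ N * _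
    rw [div_mul_cancel₀ _ (pow_ne_zero _ (hJ0 t))]
  have b5 := alg_id (α := jac (Cm p) (chartAt (Cm p) y₀) (f (u (i₁ t))) /
    jac (Cm n) (chartAt (Cm n) x₀) (u (i₁ t))) hΘ b4 b2 b3 (hc' t) a3
  have b6 : RR n p u v f₁ f N Θ₁ x₀ y₀ (i₁ t) ^ (M * m) = _ := b5
  refine le_of_pow (norm_nonneg _) (q := M * m) (by positivity) ?_
  have b7 := a2 Q' hQ'
  rw [hgi t] at b7
  rw [← norm_pow, b6, norm_mul, norm_mul, norm_pow, norm_pow]
  have b8 := a4.le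
  gcongr

end three

/-- **F1**. -/
theorem fibBddStmt : H603.TGF.FibBddStmt := by
  intro p d X₁ Y₁ X Y _ _ _ _ _ _ _ _ _ _ _ _ _ _ _ _ _ _ _ f₁ Δ₁ f Δ u v S₀ S S₁ B 𝒢 w₁ e₀ y
    hd hsq hf₁ hf hΔ₁ hΔ hSc hSS hSS₁ hsub₁ hsub hcon hcon₁ hD hB hy hF hF₁
  classical
  obtain ⟨F, _, _, _, i, hFi, hinj, hκF⟩ := hF
  have : CompactSpace F := hFi.compact
  have : ConnectedSpace F := hFi.connected
  have : IsManifold 𝓘(ℂ, Cm d) ω F := hFi.manifold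
  have : Nonempty F := hFi.connected.toNonempty
  have hr : Module.finrank ℂ (Cm (p + d)) = Module.finrank ℂ (Cm p) + Module.finrank ℂ (Cm d) := by
    simp
  have hy₀ : y ∉ S₀ := fun h => hy (hSS h)
  have hoff : ∀ t D, Δ D ≠ 0 → i t ∉ D := fun t D hD =>
    hsq.vert _ (by rw [hFi.fibre]; exact hy₀) D hD
  obtain ⟨m, σ, hm, ⟨z₀, hz₀⟩, hσ⟩ := exists_sec (fun t => hFi.hol t) hoff hκF
  have hsurj : ∀ x, f x = y → ∃ t, i t = x := fun x hx =>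
    H740.surj_fib hr hf hFi.hol (fun x hx => hsub x (by rw [hx]; exact hy)) hFi.immersion
      hFi.fibre (hcon y hy).isPreconnected hx
  intro N 𝒜₁ κ₁ Θ₁ hR h𝒜 hκ x x₀ y₀ hfx hx hyy
  have key : ∀ y₁, ∃ C : ℝ, v y₁ = y → ∀ᶠ z in 𝓝 x, f z = y → z ∉ B ∪ ⋃₀ 𝒢 → ∀ w, u w = z →
      f₁ w = y₁ → ‖RR (p + d) p u v f₁ f N Θ₁ x₀ y₀ w‖ ≤ C := by
    intro y₁
    by_cases hv1 : v y₁ = y
    · obtain ⟨F₁, _, _, _, i₁, hF₁i, hinj₁, hκF₁⟩ := hF₁ y₁ hv1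
      have : CompactSpace F₁ := hF₁i.compact
      have : ConnectedSpace F₁ := hF₁i.connected
      have : IsManifold 𝓘(ℂ, Cm d) ω F₁ := hF₁i.manifold
      have : Nonempty F₁ := hF₁i.connected.toNonempty
      have hy₁ : y₁ ∉ S₁ := hSS₁ y₁ (by rw [hv1]; exact hy)
      have hsurj₁ : ∀ x, f₁ x = y₁ → ∃ t, i₁ t = x := fun x hx =>
        H740.surj_fib hr hf₁ hF₁i.hol (fun x hx => hsub₁ x (by rw [hx]; exact hy₁))
          hF₁i.immersion hF₁i.fibre (hcon₁ y₁ hy₁).isPreconnected hx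
      obtain ⟨C, hC⟩ := bdd_one (K := B ∪ ⋃₀ 𝒢) (v := v) rfl hsq.holu hsq.holv hf₁ hf hFi.hol
        hF₁i.hol hsq.comm hFi.fibre hF₁i.fibre hv1 hy₁
        (fun t => hsub _ (by rw [hFi.fibre]; exact hy)) hFi.immersion hinj hsurj
        (fun t => hsub₁ _ (by rw [hF₁i.fibre]; exact hy₁)) hF₁i.immersion hsurj₁
        (fun w hw hwK => det_of_inj (hsq.et w (by rw [hsq.comm, hw, hv1]; exact hy₀) hwK)) hR hΔ₁
        h𝒜 (fun D hD h0 => hD (by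
          have h1 := hκ D
          rw [h0, mul_zero] at h1
          exact_mod_cast le_antisymm h1 (Nat.cast_nonneg _)))
        (fun t D hD => hsq.vert₁ _ (by rw [hsq.comm, hF₁i.fibre, hv1]; exact hy₀) D hD)
        hm hσ hz₀ hκF₁ hfx hx
      exact ⟨C, fun _ => hC⟩
    · exact ⟨0, fun h => absurd h hv1⟩
  choose C hC using key
  have hfin : (v ⁻¹' {y}).Finite := H389.TGF.fin_fib (n := p) (fun w => hsq.holv w)
    fun y₁ h1 => det_of_inj (hsq.etale y₁ (by rw [h1]; exact hy₀))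
  refine ⟨∑ y₁ ∈ hfin.toFinset, |C y₁|, ?_⟩
  have hall : ∀ᶠ z in 𝓝 x, ∀ y₁ ∈ hfin.toFinset, f z = y → z ∉ B ∪ ⋃₀ 𝒢 → ∀ w, u w = z →
      f₁ w = y₁ → ‖RR (p + d) p u v f₁ f N Θ₁ x₀ y₀ w‖ ≤ C y₁ := by
    rw [Filter.eventually_all_finset]
    intro y₁ h1
    exact hC y₁ (by simpa using h1)
  filter_upwards [hall] with z hz hzy hzK w hw
  have h1 : f₁ w ∈ hfin.toFinset := by
    rw [Set.Finite.mem_toFinset]
    show v (f₁ w) = y
    rw [← hsq.comm, hw, hzy]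
  exact (hz _ h1 hzy hzK w hw rfl).trans ((le_abs_self _).trans
    (Finset.single_le_sum (f := fun y₁ => |C y₁|) (fun _ _ => abs_nonneg _) h1))

end Vale.Agent.P281.H592.TGF
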